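import Vale.Agent.P307.Defs
import Mathlib.SetTheory.Cardinal.Ordinal
import Mathlib.Data.Fintype.Order

/-!
Unions of directed systems in an abstract elementary class.
-/

universe u

namespace Vale.Agent.P307

open FirstOrder Cardinal

variable {L : Language.{u, u}} (K : AEC L) {N : Str L}

/-- What is proved for a directed family. -/
def UnionGood (F : Set (L.Substructure N)) : Prop :=
  K.mem (Str.sub (sSup F)) ∧ (∀ S ∈ F, LeIn K.le S (sSup F)) ∧
    ∀ T : L.Substructure N, (∀ S ∈ F, LeIn K.le S T) → LeIn K.le (sSup F) T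

theorem directed_union (F : Set (L.Substructure N)) (hne : F.Nonempty)
    (hdir : DirectedOn (· ≤ ·) F) (hle : ∀ S ∈ F, ∀ T ∈ F, S ≤ T → LeIn K.le S T) :
    UnionGood K F := by
  induction hc : #F using WellFoundedLT.induction generalizing F with
  | ind θ IH =>
  classical
  by_cases hfin : F.Finite
  · obtain ⟨M, hM, hmax⟩ := hfin.exists_maximal hne
    have htop : ∀ S ∈ F, S ≤ M := by
      intro S hS
      obtain ⟨Z, hZ, h1, h2⟩ := hdir S hS M hM
      exact h1.trans (hmax hZ h2)
    have hsup : sSup F = M := le_antisymm (sSup_le htop) (le_sSup hM)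
    refine ⟨?_, ?_, ?_⟩
    · rw [hsup]; exact (K.le_mem _ _ (hle M hM M hM le_rfl).2).2
    · intro S hS; rw [hsup]; exact hle S hS M hM (htop S hS)
    · intro T hT; rw [hsup]; exact hT M hM
  have hinf : ℵ₀ ≤ θ := by
    rw [← hc]
    by_contra h
    exact hfin (Cardinal.lt_aleph0_iff_set_finite.1 (not_le.1 h))
  have chainGood : ∀ (ι : Type u) [LinearOrder ι] [WellFoundedLT ι] [Nonempty ι]
      (U : ι → L.Substructure N), (∀ i j, i ≤ j → LeIn K.le (U i) (U j)) →
      sSup F = ⨆ i, U i → (∀ S ∈ F, ∃ i, LeIn K.le S (U i)) →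
      (∀ i T, (∀ S ∈ F, LeIn K.le S T) → LeIn K.le (U i) T) → UnionGood K F := by
    intro ι _ _ _ U hU hsup hcov huniv
    obtain ⟨h1, h2, h3⟩ := K.chain N ι U hU
    refine ⟨?_, ?_, ?_⟩
    · rw [hsup]; exact h1
    · intro S hS
      rw [hsup]
      obtain ⟨i, hi⟩ := hcov S hS
      exact K.le_trans' N _ _ _ hi (h2 i)
    · intro T hT
      rw [hsup]
      exact h3 T fun i => huniv i T hT
  choose ub hubF hub1 hub2 using hdir
  rcases hinf.eq_or_lt with hθ | hθ
  · -- countable families
    have hcnt : F.Countable := by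
      rw [← Cardinal.le_aleph0_iff_set_countable, hc, ← hθ]
    obtain ⟨f, hf⟩ := hcnt.exists_eq_range hne
    have hfm : ∀ n, f n ∈ F := fun n => hf ▸ Set.mem_range_self n
    let s : ℕ → F := fun n => Nat.rec (motive := fun _ => F) ⟨f 0, hfm 0⟩
      (fun k p => ⟨ub p.1 p.2 (f (k + 1)) (hfm _), hubF _ _ _ _⟩) n
    have hs : Monotone fun n => (s n).1 := monotone_nat_of_le_succ fun n => hub1 _ _ _ _
    have hfs : ∀ n, f n ≤ (s n).1 := by
      intro n
      cases n with
      | zero => exact le_rfl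
      | succ k => exact hub2 _ _ _ _
    refine chainGood (ULift.{u} ℕ) (fun i => (s i.down).1)
      (fun i j hij => hle _ (s _).2 _ (s _).2 (hs hij)) ?_ ?_ ?_
    · refine le_antisymm (sSup_le fun S hS => ?_) (iSup_le fun i => le_sSup (s _).2)
      obtain ⟨n, rfl⟩ := hf ▸ hS
      exact (hfs n).trans (le_iSup (fun i : ULift.{u} ℕ => (s i.down).1) ⟨n⟩)
    · intro S hS
      obtain ⟨n, rfl⟩ := hf ▸ hS
      exact ⟨⟨n⟩, hle _ (hfm n) _ (s _).2 (hfs n)⟩
    · intro i T hT; exact hT _ (s _).2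
  · -- uncountable families
    obtain ⟨e⟩ : Nonempty (θ.ord.ToType ≃ F) := Cardinal.eq.1 (by simp [hc])
    let step : Set F → Set F := fun C =>
      C ∪ (fun p : F × F => (⟨ub p.1.1 p.1.2 p.2.1 p.2.2, hubF _ _ _ _⟩ : F)) '' (C ×ˢ C)
    let cl : Set F → Set F := fun A => ⋃ n : ℕ, step^[n] A
    have hstep : Monotone step := fun A B h =>
      Set.union_subset_union h (Set.image_mono (Set.prod_mono h h))
    have hcl_sub : ∀ A, A ⊆ cl A := fun A => Set.subset_iUnion (fun n => step^[n] A) 0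
    have hcl_mono : Monotone cl := fun A B h => Set.iUnion_mono fun n => hstep.iterate n h
    have hcl_card : ∀ A : Set F, #A < θ → #(cl A) < θ := by
      intro A hA
      have hm : ℵ₀ ≤ max #A ℵ₀ := le_max_right _ _
      have hn : ∀ n : ℕ, #(step^[n] A : Set F) ≤ max #A ℵ₀ := by
        intro n
        induction n with
        | zero => exact le_max_left _ _
        | succ n ih =>
          rw [Function.iterate_succ_apply']
          refine (mk_union_le _ _).trans ((add_le_add ih (mk_image_le.trans ?_)).trans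
            (Cardinal.add_eq_self hm).le)
          calc #((step^[n] A) ×ˢ (step^[n] A) : Set (F × F))
              = #(step^[n] A : Set F) * #(step^[n] A : Set F) := by
                rw [Cardinal.mul_def]
                exact Cardinal.mk_congr (Equiv.Set.prod _ _)
            _ ≤ max #A ℵ₀ * max #A ℵ₀ := mul_le_mul' ih ih
            _ = max #A ℵ₀ := Cardinal.mul_eq_self hm
      have : #(cl A) ≤ max #A ℵ₀ := by
        have h := mk_iUnion_le_lift.{u, 0} fun n : ℕ => step^[n] A
        simp only [Cardinal.lift_uzero, mk_eq_aleph0, Cardinal.lift_aleph0] at h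
        exact h.trans ((mul_le_mul' hm (ciSup_le' hn)).trans (Cardinal.mul_eq_self hm).le)
      exact this.trans_lt (max_lt hA hθ)
    let I : θ.ord.ToType → Set F := fun i => cl (e '' Set.Iic i)
    have hIe : ∀ i, e i ∈ I i := fun i => hcl_sub _ ⟨i, Set.self_mem_Iic, rfl⟩
    have hIm : Monotone I := fun i j h => hcl_mono (Set.image_mono (Set.Iic_subset_Iic.2 h))
    have hIlt : ∀ i, #(I i) < θ := by
      intro i
      refine hcl_card _ (mk_image_le.trans_lt ?_)
      rw [← Set.Iio_insert]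
      exact mk_insert_le.trans_lt
        (Cardinal.add_lt_of_lt hinf (mk_Iio_ord_toType i) (one_lt_aleph0.trans hθ))
    have hIdir : ∀ i, DirectedOn (· ≤ ·) (Subtype.val '' I i) := by
      rintro i _ ⟨a, ha, rfl⟩ _ ⟨b, hb, rfl⟩
      obtain ⟨n, hn⟩ := Set.mem_iUnion.1 ha
      obtain ⟨m, hm⟩ := Set.mem_iUnion.1 hb
      have hmono : Monotone fun n => step^[n] (e '' Set.Iic i) := by
        refine monotone_nat_of_le_succ fun k => ?_
        rw [Function.iterate_succ_apply']
        exact Set.subset_union_left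
      refine ⟨ub a.1 a.2 b.1 b.2, ⟨⟨_, hubF _ _ _ _⟩, Set.mem_iUnion.2 ⟨max n m + 1, ?_⟩, rfl⟩,
        hub1 _ _ _ _, hub2 _ _ _ _⟩
      rw [Function.iterate_succ_apply']
      exact Or.inr ⟨(a, b), ⟨hmono (le_max_left n m) hn, hmono (le_max_right n m) hm⟩, rfl⟩
    have hsub : ∀ i, Subtype.val '' I i ⊆ F := by
      rintro i _ ⟨a, -, rfl⟩; exact a.2
    have hgood : ∀ i, UnionGood K (Subtype.val '' I i) := fun i =>
      IH (#(Subtype.val '' I i : Set _)) (mk_image_le.trans_lt (hIlt i)) _
        ⟨_, e i, hIe i, rfl⟩ (hIdir i)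
        (fun S hS T hT => hle S (hsub i hS) T (hsub i hT)) rfl
    have : Nonempty θ.ord.ToType := ⟨e.symm ⟨hne.some, hne.some_mem⟩⟩
    refine chainGood θ.ord.ToType (fun i => sSup (Subtype.val '' I i)) ?_ ?_ ?_ ?_
    · intro i j hij
      exact (hgood i).2.2 _ fun S hS => (hgood j).2.1 S (Set.image_mono (hIm hij) hS)
    · refine le_antisymm (sSup_le fun S hS => ?_) (iSup_le fun i => sSup_le_sSup (hsub i))
      refine le_trans ?_ (le_iSup _ (e.symm ⟨S, hS⟩))
      exact le_sSup ⟨_, hIe (e.symm ⟨S, hS⟩), by simp⟩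
    · intro S hS
      exact ⟨e.symm ⟨S, hS⟩, (hgood _).2.1 S ⟨_, hIe (e.symm ⟨S, hS⟩), by simp⟩⟩
    · intro i T hT
      exact (hgood i).2.2 T fun S hS => hT S (hsub i hS)

end Vale.Agent.P307
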