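import Vale.Agent.P307.Parts
import Vale.Agent.P307.Directed

/-!
Categoricity transfer for classes whose models have small components.
-/

universe u

namespace Vale.Agent.P307

open FirstOrder Cardinal

variable {L : Language.{u, u}} {lam : Cardinal.{u}} {M N : Str L}

/-- The types occurring more than `2 ^ lam` times. -/
def big (D : Decomp lam M) : Set (Set (Code L lam)) := {t | 2 ^ lam < prof D t}

theorem big_full (D : Decomp lam M) : D.Full (big D) (2 ^ lam) := fun _ h => le_of_lt h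

theorem mk_le_blocks (D : Decomp lam M) (P : Set D.B) :
    #(D.blk ⁻¹' P) ≤ #P * lam := by
  refine mk_le_mk_mul_of_mk_preimage_le (fun a => (⟨D.blk a.1, a.2⟩ : P)) fun b => ?_
  refine le_trans ?_ (D.small b.1)
  exact mk_le_of_injective (f := fun a => ⟨a.1.1, congrArg Subtype.val a.2⟩)
    fun a a' h => Subtype.ext (Subtype.ext (congrArg Subtype.val h :))

theorem mk_set_le_of_count (hlam : ℵ₀ ≤ lam) (hL : L.card ≤ lam) (D : Decomp lam M)
    (P : Set D.B) {κ : Cardinal.{u}} (hκ : 2 ^ lam ≤ κ)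
    (h : ∀ t, #{b : D.B // b ∈ P ∧ typ D b = t} ≤ κ) : #P ≤ κ := by
  have hinf : ℵ₀ ≤ κ := (hlam.trans (cantor lam).le).trans hκ
  refine (mk_le_mk_mul_of_mk_preimage_le (c := κ)
    (fun b : P => (⟨typ D b.1, b.1, rfl⟩ : Set.range (typ D))) fun t => ?_).trans ?_
  · refine le_trans ?_ (h t.1)
    exact mk_le_of_injective
      (f := fun b => ⟨b.1.1, b.1.2, congrArg Subtype.val b.2⟩)
      fun a a' h => Subtype.ext (Subtype.ext (congrArg Subtype.val h :))
  · exact (mul_le_mul' ((mk_range_typ_le hlam hL D).trans hκ) le_rfl).trans (mul_eq_self hinf).le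

theorem mk_le_of_prof_le (hlam : ℵ₀ ≤ lam) (hL : L.card ≤ lam) (D : Decomp lam M)
    {κ : Cardinal.{u}} (hκ : 2 ^ lam ≤ κ) (h : ∀ t, prof D t ≤ κ) : #M ≤ κ := by
  have hinf : ℵ₀ ≤ κ := (hlam.trans (cantor lam).le).trans hκ
  have h1 := mk_le_blocks D Set.univ
  rw [Set.preimage_univ, mk_univ] at h1
  refine h1.trans ((mul_le_mul' ?_ ((cantor lam).le.trans hκ)).trans (mul_eq_self hinf).le)
  exact mk_set_le_of_count hlam hL D _ hκ fun t =>
    le_trans (mk_congr (Equiv.subtypeEquivRight fun b => by simp)).le (h t)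

theorem mk_eq_of_prof (hlam : ℵ₀ ≤ lam) (hL : L.card ≤ lam) (D : Decomp lam M)
    {κ : Cardinal.{u}} (hκ : 2 ^ lam ≤ κ) (h : ∀ t, prof D t ≤ κ) (h' : ∃ t, prof D t = κ) :
    #M = κ := by
  refine le_antisymm (mk_le_of_prof_le hlam hL D hκ h) ?_
  obtain ⟨t, rfl⟩ := h'
  exact (mk_subtype_le _).trans (mk_le_of_surjective D.surj)

theorem exists_big (hlam : ℵ₀ ≤ lam) (hL : L.card ≤ lam) (D : Decomp lam M)
    (h : 2 ^ lam < #M) : ∃ t, t ∈ big D := by
  by_contra hne
  exact h.not_ge (mk_le_of_prof_le hlam hL D le_rfl fun t => not_lt.1 fun ht => hne ⟨t, ht⟩)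

theorem Decomp.Good.nonempty [Nonempty M] {D : Decomp lam M} {β : Set (Set (Code L lam))}
    {μ : Cardinal.{u}} {P : Set D.B} (h : D.Good β μ P) (hμ : ℵ₀ ≤ μ) : P.Nonempty := by
  obtain ⟨a⟩ := ‹Nonempty M›
  by_cases ht : typ D (D.blk a) ∈ β
  · obtain ⟨b, hb, -⟩ := mk_ne_zero_iff.1 (show #{b : D.B // b ∈ P ∧ typ D b = typ D (D.blk a)}
      ≠ 0 by rw [h.2 _ ht]; exact (aleph0_pos.trans_le hμ).ne')
    exact ⟨b, hb⟩
  · exact ⟨_, h.1 _ ht⟩

/-- Two good sets of blocks of one model differ by an automorphism. -/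
theorem good_automorph [Nonempty M] (hlam : ℵ₀ ≤ lam) (D : Decomp lam M) {P Q : Set D.B}
    (hP : D.Good (big D) (2 ^ lam) P) (hQ : D.Good (big D) (2 ^ lam) Q)
    (cP : D.Closed P) (cQ : D.Closed Q) :
    ∃ φ : M ≃[L] M, (D.part P cP).map φ.toHom = D.part Q cQ := by
  classical
  have hμ : ℵ₀ ≤ (2 : Cardinal.{u}) ^ lam := hlam.trans (cantor lam).le
  have compl : ∀ (R : Set D.B), D.Good (big D) (2 ^ lam) R → ∀ t ∈ big D,
      #{b : D.B // b ∉ R ∧ typ D b = t} = prof D t := by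
    intro R hR t ht
    have hsum : #{b : D.B // b ∈ R ∧ typ D b = t} + #{b : D.B // b ∉ R ∧ typ D b = t} =
        prof D t := by
      rw [Cardinal.add_def]
      refine mk_congr (Equiv.trans ?_ (Equiv.sumCompl fun b : {b : D.B // typ D b = t} => b.1 ∈ R))
      exact Equiv.sumCongr
        ((Equiv.subtypeEquivRight fun b => and_comm).trans
          (Equiv.subtypeSubtypeEquivSubtypeInter (fun b => typ D b = t) (fun b => b ∈ R)).symm)
        ((Equiv.subtypeEquivRight fun b => and_comm).trans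
          (Equiv.subtypeSubtypeEquivSubtypeInter (fun b => typ D b = t) (fun b => b ∉ R)).symm)
    rw [hR.2 t ht] at hsum
    refine le_antisymm (hsum ▸ le_add_self) (not_lt.1 fun hlt => ?_)
    exact (add_lt_of_lt (hμ.trans (le_of_lt ht)) ht hlt).ne hsum
  let fP : D.B → Set (Code L lam) × Prop := fun b => (typ D b, b ∈ P)
  let fQ : D.B → Set (Code L lam) × Prop := fun b => (typ D b, b ∈ Q)
  have hfib : ∀ c, Nonempty ({b // fP b = c} ≃ {b // fQ b = c}) := by
    rintro ⟨t, p⟩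
    simp only [fP, fQ, Prod.mk.injEq]
    by_cases ht : t ∈ big D
    · refine Cardinal.eq.1 ?_
      rcases Classical.propComplete p with rfl | rfl
      · calc #{b : D.B // typ D b = t ∧ (b ∈ P) = True}
            = #{b : D.B // b ∈ P ∧ typ D b = t} :=
              mk_congr (Equiv.subtypeEquivRight fun b => by simp [and_comm])
          _ = #{b : D.B // b ∈ Q ∧ typ D b = t} := (hP.2 t ht).trans (hQ.2 t ht).symm
          _ = #{b : D.B // typ D b = t ∧ (b ∈ Q) = True} :=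
              mk_congr (Equiv.subtypeEquivRight fun b => by simp [and_comm])
      · calc #{b : D.B // typ D b = t ∧ (b ∈ P) = False}
            = #{b : D.B // b ∉ P ∧ typ D b = t} :=
              mk_congr (Equiv.subtypeEquivRight fun b => by simp [and_comm])
          _ = #{b : D.B // b ∉ Q ∧ typ D b = t} := (compl P hP t ht).trans (compl Q hQ t ht).symm
          _ = #{b : D.B // typ D b = t ∧ (b ∈ Q) = False} :=
              mk_congr (Equiv.subtypeEquivRight fun b => by simp [and_comm])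
    · refine ⟨Equiv.subtypeEquivRight fun b => ⟨?_, ?_⟩⟩ <;> rintro ⟨rfl, rfl⟩ <;>
        simp [hP.1 b ht, hQ.1 b ht]
  let e : ∀ c, {b // fP b = c} ≃ {b // fQ b = c} := fun c => (hfib c).some
  let σ := Equiv.ofFiberEquiv e
  have hσ : ∀ b, (typ D (σ b), σ b ∈ Q) = (typ D b, b ∈ P) := fun b => Equiv.ofFiberEquiv_map e b
  obtain ⟨φ, hφ⟩ := exists_iso (D := D) (E := D) σ fun b => (congrArg Prod.fst (hσ b)).symm
  refine ⟨φ, Language.Substructure.ext fun y => ?_⟩
  rw [Language.Substructure.mem_map, Decomp.mem_part]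
  constructor
  · rintro ⟨x, hx, rfl⟩
    show D.blk (φ x) ∈ Q
    rw [hφ]
    exact (congrArg Prod.snd (hσ (D.blk x))).mpr hx
  · intro hy
    refine ⟨φ.symm y, ?_, φ.apply_symm_apply y⟩
    refine (congrArg Prod.snd (hσ (D.blk (φ.symm y)))).mp ?_
    rw [← hφ, φ.apply_symm_apply]
    exact hy

section AEC

variable (K : AEC L)

theorem leIn_top {S : L.Substructure M} (h : K.le M S) : LeIn K.le S ⊤ := by
  refine ⟨le_top, ?_⟩
  have := K.le_iso M (Str.sub (⊤ : L.Substructure M)) Language.Substructure.topEquiv.symm S h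
  convert this using 1
  ext x
  rw [Language.Substructure.mem_map, Language.Substructure.mem_comap]
  constructor
  · intro hx; exact ⟨x.1, hx, Subtype.ext rfl⟩
  · rintro ⟨y, hy, rfl⟩; exact hy

theorem le_of_leIn_top {S : L.Substructure M} (h : LeIn K.le S ⊤) : K.le M S := by
  have := K.le_iso (Str.sub (⊤ : L.Substructure M)) M Language.Substructure.topEquiv _ h.2
  convert this using 1
  ext x
  rw [Language.Substructure.mem_map]
  constructor
  · intro hx; exact ⟨⟨x, trivial⟩, hx, rfl⟩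
  · rintro ⟨y, hy, rfl⟩; exact hy

theorem LSLe.card_le {K : AEC L} (h : K.LSLe lam) : L.card ≤ lam := by
  obtain ⟨ell, h1, -, h2, -⟩ := h
  exact h2.trans h1

/-- Some good set of blocks gives a `≤_K`-substructure. -/
theorem exists_good_le (hlam : ℵ₀ ≤ lam) (hLS : K.LSLe lam) (hM : K.mem M) (D : Decomp lam M) :
    ∃ (P : Set D.B) (hP : D.Closed P), D.Good (big D) (2 ^ lam) P ∧ K.le M (D.part P hP) := by
  classical
  have hL := LSLe.card_le hLS
  obtain ⟨ell, hell, -, -, hls⟩ := hLS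
  have hμ : ℵ₀ ≤ (2 : Cardinal.{u}) ^ lam := hlam.trans (cantor lam).le
  have hsel : ∀ t ∈ big D, ∃ s : Set {b : D.B // typ D b = t}, #s = 2 ^ lam := fun t ht =>
    le_mk_iff_exists_set.1 (le_of_lt ht)
  choose sel hseleq using hsel
  let P0 : Set D.B := {b | ∀ h : typ D b ∈ big D, (⟨b, rfl⟩ : {c // typ D c = typ D b}) ∈ sel _ h}
  have hP0 : #P0 ≤ 2 ^ lam := by
    refine mk_set_le_of_count hlam hL D _ le_rfl fun t => ?_
    by_cases ht : t ∈ big D
    · rw [← hseleq t ht]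
      refine mk_le_of_injective (f := fun b => (⟨⟨b.1, b.2.2⟩, ?_⟩ : sel t ht)) ?_
      · obtain ⟨b, hb, rfl⟩ := b
        exact hb ht
      · intro b b' h
        exact Subtype.ext (congrArg (fun z => z.1.1) h :)
    · exact le_trans (mk_le_of_injective (f := fun b => (⟨b.1, b.2.2⟩ : {b // typ D b = t}))
        (fun b b' h => Subtype.ext (congrArg Subtype.val h :))) (not_lt.1 ht)
  have hpts : ∀ P : Set D.B, #P ≤ 2 ^ lam → #(D.blk ⁻¹' P) ≤ 2 ^ lam := fun P hP =>
    (mk_le_blocks D P).trans ((mul_le_mul' hP (cantor lam).le).trans (mul_eq_self hμ).le)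
  have hstep : ∀ P : {P : Set D.B // #P ≤ 2 ^ lam}, ∃ S : L.Substructure M,
      K.le M S ∧ D.blk ⁻¹' P.1 ⊆ (S : Set M) ∧ #(D.blk '' (S : Set M)) ≤ 2 ^ lam ∧
      #(S : Set M) ≤ 2 ^ lam := by
    intro P
    obtain ⟨S, h1, h2, h3⟩ := hls M hM (D.blk ⁻¹' P.1)
    have h4 : #(S : Set M) ≤ 2 ^ lam :=
      h3.trans ((add_le_add (hpts _ P.2) (hell.trans (cantor lam).le)).trans (add_eq_self hμ).le)
    exact ⟨S, h1, h2, mk_image_le.trans h4, h4⟩
  choose T hT1 hT2 hT3 hT4 using hstep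
  let seq : ℕ → {P : Set D.B // #P ≤ 2 ^ lam} := fun n =>
    Nat.rec (motive := fun _ => {P : Set D.B // #P ≤ 2 ^ lam}) ⟨P0, hP0⟩
      (fun _ P => ⟨_, hT3 P⟩) n
  let S : ℕ → L.Substructure M := fun n => T (seq n)
  have hSmono : Monotone S := monotone_nat_of_le_succ fun n x hx => hT2 (seq (n + 1)) ⟨x, hx, rfl⟩
  obtain ⟨hUmem, hSU, hUniv⟩ := K.chain M (ULift.{u} ℕ) (fun i => S i.down) fun i j hij =>
    K.coherence M _ _ ⊤ (hSmono hij) (leIn_top K (hT1 _)) (leIn_top K (hT1 _))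
  have hUle : K.le M (⨆ i : ULift.{u} ℕ, S i.down) :=
    le_of_leIn_top K (hUniv ⊤ fun i => leIn_top K (hT1 _))
  have hmemU : ∀ x, x ∈ (⨆ i : ULift.{u} ℕ, S i.down) ↔ ∃ n, x ∈ S n := by
    intro x
    rw [Language.Substructure.mem_iSup_of_directed (S := fun i : ULift.{u} ℕ => S i.down)
      (Monotone.directed_le fun i j hij => hSmono hij)]
    exact ⟨fun ⟨i, hi⟩ => ⟨_, hi⟩, fun ⟨n, hn⟩ => ⟨⟨n⟩, hn⟩⟩
  let P : Set D.B := ⋃ n, D.blk '' (S n : Set M)
  have hPU : ∀ x, D.blk x ∈ P ↔ x ∈ (⨆ i : ULift.{u} ℕ, S i.down) := by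
    intro x
    rw [hmemU]
    constructor
    · intro hx
      obtain ⟨n, hn⟩ := Set.mem_iUnion.1 hx
      exact ⟨n + 1, hT2 (seq (n + 1)) hn⟩
    · rintro ⟨n, hn⟩
      exact Set.mem_iUnion.2 ⟨n, x, hn, rfl⟩
  have hP0P : ∀ b ∈ P0, b ∈ P := by
    intro b hb
    obtain ⟨a, ha⟩ := D.surj b
    exact Set.mem_iUnion.2 ⟨0, a, hT2 (seq 0) (show D.blk a ∈ P0 from ha ▸ hb), ha⟩
  have hPcard : #P ≤ 2 ^ lam := by
    have h := mk_iUnion_le_lift.{u, 0} fun n : ℕ => D.blk '' (S n : Set M)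
    simp only [Cardinal.lift_uzero, mk_eq_aleph0, Cardinal.lift_aleph0] at h
    exact h.trans ((mul_le_mul' hμ (ciSup_le' fun n => hT3 _)).trans (mul_eq_self hμ).le)
  have hgood : D.Good (big D) (2 ^ lam) P := by
    refine ⟨fun b hb => hP0P b fun h => absurd h hb, fun t ht => le_antisymm ?_ ?_⟩
    · exact le_trans (mk_le_of_injective (f := fun b => (⟨b.1, b.2.1⟩ : P))
        (fun b b' h => Subtype.ext (congrArg Subtype.val h :))) hPcard
    · conv_lhs => rw [← hseleq t ht]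
      refine mk_le_of_injective (f := fun b : sel t ht => ⟨b.1.1, hP0P _ ?_, b.1.2⟩) ?_
      · obtain ⟨⟨b, rfl⟩, hb⟩ := b
        exact fun _ => hb
      · intro b b' h
        exact Subtype.ext (Subtype.ext (congrArg Subtype.val h :))
  refine ⟨P, hgood.closed hμ (big_full D), hgood, ?_⟩
  convert hUle using 1
  ext x
  exact hPU x

theorem good_le [Nonempty M] (hlam : ℵ₀ ≤ lam) (hLS : K.LSLe lam) (hM : K.mem M)
    (D : Decomp lam M) {Q : Set D.B} (hQ : D.Good (big D) (2 ^ lam) Q) (cQ : D.Closed Q) :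
    K.le M (D.part Q cQ) := by
  obtain ⟨P, cP, hP, hle⟩ := exists_good_le K hlam hLS hM D
  obtain ⟨φ, hφ⟩ := good_automorph hlam D hP hQ cP cQ
  exact hφ ▸ K.le_iso M M φ _ hle

/-- Changing the multiplicities of the common types keeps a structure in the class. -/
theorem mem_of_prof [Nonempty M] (hlam : ℵ₀ ≤ lam) (hLS : K.LSLe lam) (hM : K.mem M)
    (D : Decomp lam M) (E : Decomp lam N) (hfull : E.Full (big D) (2 ^ lam))
    (hrare : ∀ t, t ∉ big D → prof E t = prof D t) : K.mem N := by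
  classical
  have hμ : ℵ₀ ≤ (2 : Cardinal.{u}) ^ lam := hlam.trans (cantor lam).le
  obtain ⟨Q, cQ, hQ, -⟩ := exists_good_le K hlam hLS hM D
  have step : ∀ (P1 P2 : Set E.B) (h1 : E.Good (big D) (2 ^ lam) P1)
      (h2 : E.Good (big D) (2 ^ lam) P2), P1 ⊆ P2 →
      LeIn K.le (E.part P1 (h1.closed hμ hfull)) (E.part P2 (h2.closed hμ hfull)) := by
    intro P1 P2 h1 h2 h12
    have hcount : ∀ t, #{b : Q // typ D b.1 = t} = #{b : P2 // typ E b.1 = t} := by
      intro t
      rw [mk_congr (Equiv.subtypeSubtypeEquivSubtypeInter (· ∈ Q) (fun b => typ D b = t)),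
        mk_congr (Equiv.subtypeSubtypeEquivSubtypeInter (· ∈ P2) (fun b => typ E b = t))]
      by_cases ht : t ∈ big D
      · rw [hQ.2 t ht, h2.2 t ht]
      · refine (mk_congr (Equiv.subtypeEquivRight fun b => ?_)).trans
          ((hrare t ht).symm.trans (mk_congr (Equiv.subtypeEquivRight fun b => ?_)))
        · exact ⟨fun h => h.2, fun h => ⟨hQ.1 b (h ▸ ht), h⟩⟩
        · exact ⟨fun h => ⟨h2.1 b (h ▸ ht), h⟩, fun h => h.2⟩
    let e : ∀ t, {b : Q // typ D b.1 = t} ≃ {b : P2 // typ E b.1 = t} := fun t =>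
      (Cardinal.eq.1 (hcount t)).some
    let σ := Equiv.ofFiberEquiv e
    have hσ : ∀ b : Q, typ E (σ b).1 = typ D b.1 := fun b => Equiv.ofFiberEquiv_map e b
    obtain ⟨φ, hφ⟩ := part_iso cQ (h2.closed hμ hfull) (hQ.nonempty hμ) σ fun b => (hσ b).symm
    let P : Set D.B := {b | ∃ h : b ∈ Q, (σ ⟨b, h⟩).1 ∈ P1}
    have hP : D.Good (big D) (2 ^ lam) P := by
      refine ⟨fun b hb => ⟨hQ.1 b hb, h1.1 _ (by rw [hσ]; exact hb)⟩, fun t ht => ?_⟩
      rw [← h1.2 t ht]
      refine mk_congr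
        { toFun := fun b => ⟨(σ ⟨b.1, b.2.1.1⟩).1, b.2.1.2, (hσ _).trans b.2.2⟩
          invFun := fun b => ⟨(σ.symm ⟨b.1, h12 b.2.1⟩).1,
            ⟨(σ.symm _).2, by simpa using b.2.1⟩, by rw [← hσ]; simpa using b.2.2⟩
          left_inv := fun b => by simp
          right_inv := fun b => by simp }
    have hPQ : P ⊆ Q := fun b hb => hb.1
    have hle : LeIn K.le (D.part P (hP.closed hμ (big_full D))) (D.part Q cQ) :=
      K.coherence M _ _ ⊤ (fun x hx => hPQ hx) (leIn_top K (good_le K hlam hLS hM D hP _))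
        (leIn_top K (good_le K hlam hLS hM D hQ _))
    refine ⟨fun x hx => h12 hx, ?_⟩
    have := K.le_iso (Str.sub (D.part Q cQ)) (Str.sub (E.part P2 (h2.closed hμ hfull))) φ _ hle.2
    convert this using 1
    ext x
    rw [Language.Substructure.mem_map, Language.Substructure.mem_comap]
    show E.blk x.1 ∈ P1 ↔ _
    constructor
    · intro hx
      refine ⟨φ.symm x, ⟨(φ.symm x).2, ?_⟩, φ.apply_symm_apply x⟩
      show (σ ⟨D.blk (φ.symm x).1, _⟩).1 ∈ P1
      exact hφ (φ.symm x) ▸ (φ.apply_symm_apply x).symm ▸ hx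
    · rintro ⟨a, ⟨h, ha⟩, rfl⟩
      show E.blk (φ a).1 ∈ P1
      rw [hφ]
      exact ha
  have hselE : ∀ t ∈ big D, ∃ s : Set {b : E.B // typ E b = t}, #s = 2 ^ lam := fun t ht =>
    le_mk_iff_exists_set.1 (hfull t ht)
  choose sel hseleq using hselE
  let P0 : Set E.B := {b | ∀ h : typ E b ∈ big D, (⟨b, rfl⟩ : {c // typ E c = typ E b}) ∈ sel _ h}
  have hP0 : E.Good (big D) (2 ^ lam) P0 := by
    refine ⟨fun b hb h => absurd h hb, fun t ht => ?_⟩
    rw [← hseleq t ht]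
    refine mk_congr
      { toFun := fun b => ⟨⟨b.1, b.2.2⟩, ?_⟩
        invFun := fun b => ⟨b.1.1, ?_, b.1.2⟩
        left_inv := fun _ => rfl
        right_inv := fun _ => rfl }
    · obtain ⟨b, hb, rfl⟩ := b
      exact hb ht
    · obtain ⟨⟨b, rfl⟩, hb⟩ := b
      exact fun _ => hb
  have hunion : ∀ P1 P2 : Set E.B, E.Good (big D) (2 ^ lam) P1 →
      (∀ t ∈ big D, #{b : E.B // b ∈ P2 ∧ typ E b = t} ≤ 2 ^ lam) →
      E.Good (big D) (2 ^ lam) (P1 ∪ P2) := by
    intro P1 P2 h1 h2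
    refine ⟨fun b hb => Or.inl (h1.1 b hb), fun t ht => le_antisymm ?_ ?_⟩
    · refine le_trans ?_ ((add_le_add (h1.2 t ht).le (h2 t ht)).trans (add_eq_self hμ).le)
      refine le_trans ?_ (mk_union_le {b | b ∈ P1 ∧ typ E b = t} {b | b ∈ P2 ∧ typ E b = t})
      exact mk_le_mk_of_subset (fun b hb => hb.1.imp (fun h => ⟨h, hb.2⟩) (fun h => ⟨h, hb.2⟩))
    · conv_lhs => rw [← h1.2 t ht]
      exact mk_le_mk_of_subset (fun b hb => ⟨Or.inl hb.1, hb.2⟩)
  let F : Set (L.Substructure N) :=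
    {S | ∃ (P : Set E.B) (h : E.Good (big D) (2 ^ lam) P), S = E.part P (h.closed hμ hfull)}
  have hF : UnionGood K F := by
    refine directed_union K F ⟨_, P0, hP0, rfl⟩ ?_ ?_
    · rintro _ ⟨P1, h1, rfl⟩ _ ⟨P2, h2, rfl⟩
      exact ⟨_, ⟨_, hunion P1 P2 h1 fun t ht => (h2.2 t ht).le, rfl⟩,
        fun x hx => Or.inl hx, fun x hx => Or.inr hx⟩
    · rintro _ ⟨P1, h1, rfl⟩ _ ⟨P2, h2, rfl⟩ h12
      refine step P1 P2 h1 h2 fun b hb => ?_
      obtain ⟨a, ha⟩ := E.surj b
      exact ha ▸ h12 (show E.blk a ∈ P1 from ha ▸ hb)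
  have htop : sSup F = ⊤ := by
    refine eq_top_iff.2 fun x _ => ?_
    have hx : E.Good (big D) (2 ^ lam) (P0 ∪ {E.blk x}) := hunion _ _ hP0 fun t ht => by
      refine le_trans ?_ (one_le_aleph0.trans hμ)
      exact le_one_iff_subsingleton.2 ⟨fun a b => Subtype.ext (a.2.1.trans b.2.1.symm)⟩
    exact le_sSup (show E.part _ (hx.closed hμ hfull) ∈ F from ⟨_, hx, rfl⟩) (Or.inr rfl)
  exact K.mem_iso (Str.sub (⊤ : L.Substructure N)) N Language.Substructure.topEquiv (htop ▸ hF.1)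

/-- There is a model with any prescribed large multiplicities of the common types. -/
theorem exists_model (hlam : ℵ₀ ≤ lam) (hLS : K.LSLe lam) (hM : K.mem M) (hsize : 2 ^ lam < #M)
    (D : Decomp lam M) (hD : D.Conn) (q : Set (Code L lam) → Cardinal.{u})
    (hq : ∀ t ∈ big D, 2 ^ lam ≤ q t) :
    ∃ (N : Str L) (E : Decomp lam N), K.mem N ∧ E.Conn ∧
      (∀ t, t ∉ big D → prof E t = prof D t) ∧ ∀ t ∈ big D, prof E t = q t := by
  classical
  have hμ : ℵ₀ ≤ (2 : Cardinal.{u}) ^ lam := hlam.trans (cantor lam).le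
  haveI : Nonempty M := mk_ne_zero_iff.1 (ne_bot_of_gt hsize)
  have hu : Unary L := unary_of_lt D ((cantor lam).trans hsize)
  have hne : ∀ t ∈ big D, ∃ b, typ D b = t := fun t ht => by
    obtain ⟨b⟩ := mk_ne_zero_iff.1 (ne_bot_of_gt (show 2 ^ lam < prof D t from ht))
    exact ⟨b.1, b.2⟩
  choose rep hrep using hne
  let m : D.B → Cardinal.{u} := fun b =>
    if h : typ D b ∈ big D then (if b = rep _ h then q (typ D b) else 0) else 1
  have hone : ∀ b, typ D b ∉ big D → m b = 1 := fun b hb => dif_neg hb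
  let J : D.B → Type u := fun b => (m b).out
  have hJ1 : ∀ b, typ D b ∉ big D → Nonempty (J b) ∧ Subsingleton (J b) := by
    intro b hb
    have : #(J b) = 1 := (mk_out _).trans (hone b hb)
    exact ⟨mk_ne_zero_iff.1 (by rw [this]; exact one_ne_zero),
      le_one_iff_subsingleton.1 this.le⟩
  have hconst : ∀ (f : L.Functions 0) (x : Fin 0 → M),
      typ D (D.blk (Language.Structure.funMap f x)) ∉ big D :=
    fun f x => (big_full D).const_notMem hμ f x
  let c : ∀ (f : L.Functions 0) (x : Fin 0 → M), J (D.blk (Language.Structure.funMap f x)) :=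
    fun f x => (hJ1 _ (hconst f x)).1.some
  have hc : ∀ (f : L.Functions 0) (x : Fin 0 → M),
      Subsingleton (J (D.blk (Language.Structure.funMap f x))) :=
    fun f x => (hJ1 _ (hconst f x)).2
  let E : Decomp lam (blow c) := blowDecomp c hu
  have hprof : ∀ t, prof E t = #{p : Σ b, J b // typ D p.1 = t} := fun t =>
    mk_congr (Equiv.subtypeEquivRight fun (p : Σ b, J b) =>
      iff_of_eq (congrArg (· = t) (typ_blow c hu hc p)))
  have hr : ∀ t, t ∉ big D → prof E t = prof D t := by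
    intro t ht
    rw [hprof]
    refine mk_congr (Equiv.ofBijective (fun p => (⟨p.1.1, p.2⟩ : {b // typ D b = t})) ⟨?_, ?_⟩)
    · rintro ⟨⟨b, j⟩, hb⟩ ⟨⟨b', j'⟩, hb'⟩ h
      obtain rfl : b = b' := congrArg Subtype.val h
      have : Subsingleton (J b) := (hJ1 b (by rw [show typ D b = t from hb]; exact ht)).2
      obtain rfl := Subsingleton.elim j j'
      rfl
    · rintro ⟨b, hb⟩
      exact ⟨⟨⟨b, (hJ1 b (by rw [hb]; exact ht)).1.some⟩, hb⟩, rfl⟩
  have hb : ∀ t ∈ big D, prof E t = q t := by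
    intro t ht
    have hmr : m (rep t ht) = q t := by
      have h := hrep t ht
      simp only [m]
      rw [dif_pos (show typ D (rep t ht) ∈ big D by rw [h]; exact ht), if_pos (by simp only [h]), h]
    rw [hprof, ← hmr, ← mk_out (m (rep t ht))]
    refine mk_congr (Equiv.ofBijective (fun j => (⟨⟨rep t ht, j⟩, hrep t ht⟩ :
      {p : Σ b, J b // typ D p.1 = t})) ⟨?_, ?_⟩).symm
    · intro j j' h
      exact eq_of_heq (Sigma.mk.inj_iff.1 (congrArg Subtype.val h)).2
    · rintro ⟨⟨b, j⟩, hbt : typ D b = t⟩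
      obtain rfl : b = rep t ht := by
        by_contra hne
        subst hbt
        have h0 : #(J b) = 0 := by
          simp only [J, m, mk_out, dif_pos ht, if_neg hne]
        exact (mk_eq_zero_iff.1 h0).false j
      exact ⟨j, rfl⟩
  refine ⟨blow c, E, ?_, blow_conn c hu hc hD, hr, hb⟩
  exact mem_of_prof K hlam hLS hM D E (fun t ht => (hb t ht).symm ▸ hq t ht) hr

/-- Categoricity transfer. -/
theorem categorical_transfer (hlam : ℵ₀ ≤ lam) (hLS : K.LSLe lam)
    (hsmall : ∀ M : Str L, K.mem M → SmallComponents lam M) {κ : Cardinal.{u}}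
    (hκ : 2 ^ lam < κ) (hcat : K.Categorical κ) {κ' : Cardinal.{u}} (hκ' : 2 ^ lam < κ') :
    K.Categorical κ' := by
  classical
  have hL := LSLe.card_le hLS
  obtain ⟨⟨M0, hM0, hM0κ⟩, huniq⟩ := hcat
  let D0 := Decomp.ofSmall (hsmall M0 hM0)
  -- any model of size `κ` built from a model `M` has the profile of `M0`
  have same : ∀ (M : Str L) (hM : K.mem M) (D : Decomp lam M), D.Conn → 2 ^ lam < #M →
      ∀ q : Set (Code L lam) → Cardinal.{u}, (∀ t ∈ big D, 2 ^ lam ≤ q t ∧ q t ≤ κ) →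
      (∃ t ∈ big D, q t = κ) →
      (∀ t, t ∉ big D → prof D0 t = prof D t) ∧ ∀ t ∈ big D, prof D0 t = q t := by
    intro M hM D hD hsize q hq hqκ
    obtain ⟨N, E, hN, hE, hr, hb⟩ :=
      exists_model K hlam hLS hM hsize D hD q fun t ht => (hq t ht).1
    have hNκ : #N = κ := by
      refine mk_eq_of_prof hlam hL E hκ.le (fun t => ?_) ?_
      · by_cases ht : t ∈ big D
        · exact (hb t ht).le.trans (hq t ht).2
        · exact (hr t ht).le.trans ((not_lt.1 ht).trans hκ.le)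
      · obtain ⟨t, ht, htκ⟩ := hqκ
        exact ⟨t, (hb t ht).trans htκ⟩
    obtain ⟨φ⟩ := huniq M0 N hM0 hN hM0κ hNκ
    have heq := prof_eq_of_iso (Decomp.conn_ofSmall (hsmall M0 hM0)) hE φ
    exact ⟨fun t ht => (heq t).trans (hr t ht), fun t ht => (heq t).trans (hb t ht)⟩
  have facts : ∀ (M : Str L) (hM : K.mem M), 2 ^ lam < #M → ∀ t,
      prof (Decomp.ofSmall (hsmall M hM)) t = if prof D0 t = κ then #M else prof D0 t := by
    intro M hM hsize
    let D := Decomp.ofSmall (hsmall M hM)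
    have hD : D.Conn := Decomp.conn_ofSmall _
    obtain ⟨t0, ht0⟩ := exists_big hlam hL D hsize
    obtain ⟨hr, hb⟩ := same M hM D hD hsize (fun _ => κ) (fun t _ => ⟨hκ.le, le_rfl⟩)
      ⟨t0, ht0, rfl⟩
    have hiff : ∀ t, prof D0 t = κ ↔ t ∈ big D := by
      refine fun t => ⟨fun h => ?_, hb t⟩
      by_contra ht
      exact hκ.not_ge (h ▸ (hr t ht).le.trans (not_lt.1 ht))
    have hsing : ∀ s ∈ big D, ∀ t ∈ big D, s = t := by
      intro s hs t ht
      by_contra hne
      obtain ⟨-, hb'⟩ := same M hM D hD hsize (fun r => if r = s then 2 ^ lam else κ)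
        (fun r _ => by by_cases h : r = s <;> simp [h, hκ.le])
        ⟨t, ht, by simp [Ne.symm hne]⟩
      have := (hb' s hs).symm.trans (hb s hs)
      simp only [if_pos] at this
      exact hκ.ne this
    have hmax : #M = prof D t0 := by
      refine mk_eq_of_prof hlam hL D (le_of_lt ht0) (fun t => ?_) ⟨t0, rfl⟩
      by_cases ht : t ∈ big D
      · rw [hsing t ht t0 ht0]
      · exact (not_lt.1 ht).trans (le_of_lt ht0)
    intro t
    by_cases ht : t ∈ big D
    · rw [if_pos ((hiff t).2 ht), hmax, hsing t ht t0 ht0]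
    · rw [if_neg (mt (hiff t).1 ht)]
      exact (hr t ht).symm
  refine ⟨?_, fun M N hM hN hMκ hNκ => ?_⟩
  · have hsize : 2 ^ lam < #M0 := hM0κ ▸ hκ
    obtain ⟨N, E, hN, -, hr, hb⟩ := exists_model K hlam hLS hM0 hsize D0
      (Decomp.conn_ofSmall _) (fun _ => κ') fun _ _ => hκ'.le
    refine ⟨N, hN, mk_eq_of_prof hlam hL E hκ'.le (fun t => ?_) ?_⟩
    · by_cases ht : t ∈ big D0
      · exact (hb t ht).le
      · exact (hr t ht).le.trans ((not_lt.1 ht).trans hκ'.le)
    · obtain ⟨t0, ht0⟩ := exists_big hlam hL D0 hsize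
      exact ⟨t0, hb t0 ht0⟩
  · haveI : Nonempty M := mk_ne_zero_iff.1 (by rw [hMκ]; exact ne_bot_of_gt hκ')
    refine iso_of_prof_eq (D := Decomp.ofSmall (hsmall M hM))
      (E := Decomp.ofSmall (hsmall N hN)) fun t => ?_
    rw [facts M hM (hMκ ▸ hκ'), facts N hN (hNκ ▸ hκ'), hMκ, hNκ]

end AEC

end Vale.Agent.P307
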