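import Vale.Agent.P307.Defs
import Mathlib.Logic.Equiv.Set

/-!
Decompositions of a structure into small blocks, the types of blocks, and the isomorphisms
that they give.
-/

universe u

namespace Vale.Agent.P307

open FirstOrder Cardinal Language.Structure

variable {L : Language.{u, u}}

/-- A partition of `M` into blocks of size at most `lam`, closed in the Gaifman sense. -/
structure Decomp (lam : Cardinal.{u}) (M : Str L) where
  B : Type u
  blk : M → B
  surj : Function.Surjective blk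
  small : ∀ b, #{a : M // blk a = b} ≤ lam
  rel : ∀ {n} (R : L.Relations n) (x : Fin n → M), RelMap R x → ∀ i j, blk (x i) = blk (x j)
  func : ∀ {n} (f : L.Functions n) (x : Fin n → M) (i : Fin n), blk (funMap f x) = blk (x i)

variable {lam : Cardinal.{u}} {M N : Str L}

/-- A block. -/
abbrev Decomp.fib (D : Decomp lam M) (b : D.B) : Type u := {a : M // D.blk a = b}

/-- An isomorphism between two blocks. -/
structure BlockIso (D : Decomp lam M) (E : Decomp lam N) (b : D.B) (c : E.B) where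
  e : D.fib b ≃ E.fib c
  rel : ∀ {n} (R : L.Relations n) (x : Fin n → D.fib b),
    RelMap R (fun i => (x i).1) ↔ RelMap R (fun i => (e (x i)).1)
  func : ∀ {n} (f : L.Functions n) (x : Fin n → D.fib b) (y : D.fib b),
    funMap f (fun i => (x i).1) = y.1 ↔ funMap f (fun i => (e (x i)).1) = (e y).1

/-- The canonical decomposition into components. -/
def Decomp.ofSmall (h : SmallComponents lam M) : Decomp lam M where
  B := Quot (Adj M)
  blk := Quot.mk _
  surj := Quot.mk_surjective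
  small b := by
    induction b using Quot.ind with
    | mk a =>
      refine le_trans (le_of_eq ?_) (h a)
      exact mk_congr (Equiv.subtypeEquivRight fun b => by
        rw [eq_comm]; exact Quot.eq)
  rel R x hx i j := Quot.sound (Or.inl ⟨_, R, x, hx, ⟨i, rfl⟩, ⟨j, rfl⟩⟩)
  func f x i := Quot.sound (Or.inr ⟨_, f, x, Or.inl rfl, Or.inr ⟨i, rfl⟩⟩)

/-- Every block is connected. -/
def Decomp.Conn (D : Decomp lam M) : Prop :=
  ∀ a b, D.blk a = D.blk b → Relation.EqvGen (Adj M) a b

theorem Decomp.conn_ofSmall (h : SmallComponents lam M) : (Decomp.ofSmall h).Conn :=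
  fun _ _ hab => Quot.eqvGen_exact hab

theorem Decomp.blk_eq_of_adj (D : Decomp lam M) {a b : M} (h : Adj M a b) :
    D.blk a = D.blk b := by
  rcases h with ⟨n, R, x, hx, ⟨i, rfl⟩, ⟨j, rfl⟩⟩ | ⟨n, f, x, ha, hb⟩
  · exact D.rel R x hx i j
  · rcases ha with rfl | ⟨i, rfl⟩ <;> rcases hb with rfl | ⟨j, rfl⟩
    · rfl
    · exact D.func f x j
    · exact (D.func f x i).symm
    · exact (D.func f x i).symm.trans (D.func f x j)

theorem Decomp.blk_eq_of_eqvGen (D : Decomp lam M) {a b : M}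
    (h : Relation.EqvGen (Adj M) a b) : D.blk a = D.blk b := by
  induction h with
  | rel a b hab => exact D.blk_eq_of_adj hab
  | refl a => rfl
  | symm a b _ ih => exact ih.symm
  | trans a b c _ _ ih ih' => exact ih.trans ih'

namespace BlockIso

variable {D : Decomp lam M} {E : Decomp lam N} {b : D.B} {c : E.B}

theorem adj (I : BlockIso D E b c) (x y : D.fib b) (h : Adj M x.1 y.1) :
    (I.e x).1 = (I.e y).1 ∨ Adj N (I.e x).1 (I.e y).1 := by
  rcases h with ⟨n, R, z, hz, ⟨i, hi⟩, ⟨j, hj⟩⟩ | ⟨n, f, z, hx, hy⟩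
  · have hzb : ∀ k, D.blk (z k) = b := fun k => (D.rel R z hz k i).trans (hi ▸ x.2)
    refine Or.inr (Or.inl ⟨n, R, fun k => (I.e ⟨z k, hzb k⟩).1,
      (I.rel R fun k => ⟨z k, hzb k⟩).1 hz, ⟨i, ?_⟩, ⟨j, ?_⟩⟩)
    · simp only [hi]
    · simp only [hj]
  · cases n with
    | zero =>
      rcases hx with hx | ⟨i, -⟩
      · rcases hy with hy | ⟨j, -⟩
        · left; congr 2; exact Subtype.ext (hx.symm.trans hy)
        · exact j.elim0
      · exact i.elim0
    | succ n =>
      have hfb : D.blk (funMap f z) = b := by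
        rcases hx with hx | ⟨i, hi⟩
        · exact hx ▸ x.2
        · exact (D.func f z i).trans (hi ▸ x.2)
      have hzb : ∀ k, D.blk (z k) = b := fun k => (D.func f z k).symm.trans hfb
      have hval := (I.func f (fun k => ⟨z k, hzb k⟩) ⟨_, hfb⟩).1 rfl
      refine Or.inr (Or.inr ⟨_, f, fun k => (I.e ⟨z k, hzb k⟩).1, ?_, ?_⟩)
      · rcases hx with hx | ⟨i, hi⟩
        · left; rw [hval]; simp only [hx]
        · right; exact ⟨i, by simp only [hi]⟩
      · rcases hy with hy | ⟨i, hi⟩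
        · left; rw [hval]; simp only [hy]
        · right; exact ⟨i, by simp only [hi]⟩

theorem eqvGen (I : BlockIso D E b c) (hD : D.Conn) (x y : E.fib c) :
    Relation.EqvGen (Adj N) x.1 y.1 := by
  suffices h : ∀ a a', Relation.EqvGen (Adj M) a a' → ∀ (ha : D.blk a = b) (ha' : D.blk a' = b),
      Relation.EqvGen (Adj N) (I.e ⟨a, ha⟩).1 (I.e ⟨a', ha'⟩).1 by
    have := h _ _ (hD _ _ ((I.e.symm x).2.trans (I.e.symm y).2.symm)) (I.e.symm x).2 (I.e.symm y).2
    simpa using this
  intro a a' h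
  induction h with
  | rel a a' hab =>
    intro ha ha'
    rcases I.adj ⟨a, ha⟩ ⟨a', ha'⟩ hab with h | h
    · rw [h]; exact .refl _
    · exact .rel _ _ h
  | refl a => intro ha ha'; exact .refl _
  | symm a a' _ ih => intro ha ha'; exact (ih ha' ha).symm
  | trans a a' a'' h1 _ ih1 ih2 =>
    intro ha ha''
    have ha' : D.blk a' = b := (D.blk_eq_of_eqvGen h1).symm.trans ha
    exact .trans _ _ _ (ih1 ha ha') (ih2 ha' ha'')

end BlockIso

/-- Codes for blocks: diagrams on a fixed set of size `lam`. -/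
abbrev Code (L : Language.{u, u}) (lam : Cardinal.{u}) : Type u :=
  Set (lam.out ⊕ (Σ n, L.Relations n × (Fin n → lam.out)) ⊕
    (Σ n, L.Functions n × ((Fin n → lam.out) × lam.out)))

theorem mk_code_le (hlam : ℵ₀ ≤ lam) (hL : L.card ≤ lam) : #(Code L lam) ≤ 2 ^ lam := by
  have hm := mul_eq_self hlam
  have hlift : lift.{u, 0} #ℕ ≤ lam := by simpa using hlam
  have hpow : ∀ n : ℕ, #(Fin n → lam.out) ≤ lam := fun n => by
    simpa using Cardinal.pow_le hlam (Cardinal.natCast_lt_aleph0)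
  have hF : ∀ n, #(L.Functions n) ≤ lam := fun n =>
    (mk_le_of_injective (f := fun f => (Sum.inl ⟨n, f⟩ : L.Symbols)) (by
      intro a b h; simpa using h)).trans hL
  have hR : ∀ n, #(L.Relations n) ≤ lam := fun n =>
    (mk_le_of_injective (f := fun f => (Sum.inr ⟨n, f⟩ : L.Symbols)) (by
      intro a b h; simpa using h)).trans hL
  have hsig : ∀ f : ℕ → Type u, (∀ n, #(f n) ≤ lam) → #(Σ n, f n) ≤ lam := by
    intro f hf
    rw [mk_sigma]
    refine (sum_le_lift_mk_mul_iSup _).trans ?_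
    exact (mul_le_mul' hlift (ciSup_le' hf)).trans hm.le
  rw [mk_set]
  refine Cardinal.power_le_power_left two_ne_zero ?_
  rw [mk_sum, mk_sum]
  simp only [Cardinal.lift_id]
  refine (add_le_add (mk_out lam).le (add_le_add
    (hsig _ fun n => ?_) (hsig _ fun n => ?_))).trans ?_
  · rw [mk_prod, Cardinal.lift_id, Cardinal.lift_id]
    exact (mul_le_mul' (hR n) (hpow n)).trans hm.le
  · rw [mk_prod, Cardinal.lift_id, Cardinal.lift_id, mk_prod, Cardinal.lift_id, Cardinal.lift_id]
    exact (mul_le_mul' (hF n) ((mul_le_mul' (hpow n) (mk_out lam).le).trans hm.le)).trans hm.le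
  · rw [Cardinal.add_eq_self hlam, Cardinal.add_eq_self hlam]

/-- The code of a block under an embedding into `lam.out`. -/
def code (D : Decomp lam M) (b : D.B) (e : D.fib b ↪ lam.out) : Code L lam :=
  fun s => match s with
  | .inl w => ∃ y, e y = w
  | .inr (.inl ⟨_, R, x⟩) => ∃ y : _ → D.fib b, RelMap R (fun i => (y i).1) ∧ e ∘ y = x
  | .inr (.inr ⟨_, f, x, w⟩) =>
    ∃ (y : _ → D.fib b) (z : D.fib b), funMap f (fun i => (y i).1) = z.1 ∧ e ∘ y = x ∧ e z = w

/-- The isomorphism type of a block. -/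
def typ (D : Decomp lam M) (b : D.B) : Set (Code L lam) := fun c => ∃ e, code D b e = c

theorem typ_nonempty (D : Decomp lam M) (b : D.B) : ∃ e, code D b e ∈ typ D b := by
  obtain ⟨e⟩ : Nonempty (D.fib b ↪ lam.out) :=
    Cardinal.le_def _ _ |>.1 ((D.small b).trans (mk_out lam).ge)
  exact ⟨e, e, rfl⟩

theorem code_rel {D : Decomp lam M} {b : D.B} (e : D.fib b ↪ lam.out) {n} (R : L.Relations n)
    (y : Fin n → D.fib b) :
    code D b e (.inr (.inl ⟨n, R, e ∘ y⟩)) ↔ RelMap R (fun i => (y i).1) := by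
  refine ⟨fun ⟨y', h, he⟩ => ?_, fun h => ⟨y, h, rfl⟩⟩
  obtain rfl : y' = y := funext fun i => e.injective (congrFun he i)
  exact h

theorem code_fun {D : Decomp lam M} {b : D.B} (e : D.fib b ↪ lam.out) {n} (f : L.Functions n)
    (y : Fin n → D.fib b) (z : D.fib b) :
    code D b e (.inr (.inr ⟨n, f, e ∘ y, e z⟩)) ↔ funMap f (fun i => (y i).1) = z.1 := by
  refine ⟨fun ⟨y', z', h, he, hz⟩ => ?_, fun h => ⟨y, z, h, rfl, rfl⟩⟩
  obtain rfl : y' = y := funext fun i => e.injective (congrFun he i)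
  obtain rfl : z' = z := e.injective hz
  exact h

theorem blockIso_of_typ_eq {D : Decomp lam M} {E : Decomp lam N} {b : D.B} {c : E.B}
    (h : typ D b = typ E c) : Nonempty (BlockIso D E b c) := by
  obtain ⟨e, he⟩ := typ_nonempty D b
  rw [h] at he
  obtain ⟨e', he'⟩ := he
  have hr : Set.range e = Set.range e' := by
    ext w; exact (iff_of_eq (congrFun he' (.inl w))).symm
  let φ : D.fib b ≃ E.fib c := ((Equiv.ofInjective e e.injective).trans
    (Equiv.setCongr hr)).trans (Equiv.ofInjective e' e'.injective).symm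
  have hφ : ∀ y, e' (φ y) = e y := fun y => by
    simp [φ, Equiv.apply_ofInjective_symm e'.injective]
  refine ⟨⟨φ, fun R x => ?_, fun f x y => ?_⟩⟩
  · rw [← code_rel e R x, ← code_rel e' R (fun i => φ (x i)), he']
    simp only [Function.comp_def, hφ]
  · rw [← code_fun e f x y, ← code_fun e' f (fun i => φ (x i)) (φ y), he']
    simp only [Function.comp_def, hφ]

theorem BlockIso.typ_eq {D : Decomp lam M} {E : Decomp lam N} {b : D.B} {c : E.B}
    (I : BlockIso D E b c) : typ D b = typ E c := by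
  have key : ∀ e : E.fib c ↪ lam.out, code D b (I.e.toEmbedding.trans e) = code E c e := by
    intro e
    funext s
    apply propext
    rcases s with w | ⟨n, R, x⟩ | ⟨n, f, x, w⟩
    · exact ⟨fun ⟨y, h⟩ => ⟨I.e y, h⟩, fun ⟨y, h⟩ => ⟨I.e.symm y, by simpa using h⟩⟩
    · constructor
      · rintro ⟨y, h, rfl⟩
        exact ⟨fun i => I.e (y i), (I.rel R y).1 h, rfl⟩
      · rintro ⟨y, h, rfl⟩
        exact ⟨fun i => I.e.symm (y i), (I.rel R _).2 (by simpa using h), by ext i; simp⟩
    · constructor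
      · rintro ⟨y, z, h, rfl, rfl⟩
        exact ⟨fun i => I.e (y i), I.e z, (I.func f y z).1 h, rfl, rfl⟩
      · rintro ⟨y, z, h, rfl, rfl⟩
        exact ⟨fun i => I.e.symm (y i), I.e.symm z, (I.func f _ _).2 (by simpa using h),
          by ext i; simp, by simp⟩
  funext s
  apply propext
  constructor
  · rintro ⟨e, rfl⟩
    refine ⟨I.e.symm.toEmbedding.trans e, ?_⟩
    rw [← key]
    congr 1
    ext y; simp
  · rintro ⟨e, rfl⟩
    exact ⟨_, key e⟩

/-- The number of blocks of a given type. -/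
def prof (D : Decomp lam M) (t : Set (Code L lam)) : Cardinal.{u} := #{b : D.B // typ D b = t}

theorem mk_range_typ_le (hlam : ℵ₀ ≤ lam) (hL : L.card ≤ lam) (D : Decomp lam M) :
    #(Set.range (typ D)) ≤ 2 ^ lam := by
  refine le_trans ?_ (mk_code_le hlam hL)
  have hne : ∀ t : Set.range (typ D), ∃ c, c ∈ t.1 ∧ ∀ b, c ∈ typ D b → typ D b = t.1 := by
    rintro ⟨_, b, rfl⟩
    obtain ⟨e, he⟩ := typ_nonempty D b
    refine ⟨_, he, fun b' hb' => ?_⟩
    obtain ⟨e', he'⟩ := hb'
    have hr : Set.range e = Set.range e' := by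
      ext w; exact (iff_of_eq (congrFun he' (.inl w))).symm
    let φ : D.fib b ≃ D.fib b' := ((Equiv.ofInjective e e.injective).trans
      (Equiv.setCongr hr)).trans (Equiv.ofInjective e' e'.injective).symm
    have hφ : ∀ y, e' (φ y) = e y := fun y => by
      simp [φ, Equiv.apply_ofInjective_symm e'.injective]
    refine (BlockIso.typ_eq ⟨φ, fun R x => ?_, fun f x y => ?_⟩).symm
    · rw [← code_rel e R x, ← code_rel e' R (fun i => φ (x i)), he']
      simp only [Function.comp_def, hφ]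
    · rw [← code_fun e f x y, ← code_fun e' f (fun i => φ (x i)) (φ y), he']
      simp only [Function.comp_def, hφ]
  choose g hg1 hg2 using hne
  refine mk_le_of_injective (f := g) ?_
  rintro ⟨_, b, rfl⟩ ⟨_, b', rfl⟩ h
  apply Subtype.ext
  exact hg2 ⟨_, b', rfl⟩ b (by rw [← h]; exact hg1 ⟨_, b, rfl⟩)

theorem exists_iso [Nonempty M] {D : Decomp lam M} {E : Decomp lam N} (σ : D.B ≃ E.B)
    (hσ : ∀ b, typ D b = typ E (σ b)) :
    ∃ φ : M ≃[L] N, ∀ a, E.blk (φ a) = σ (D.blk a) := by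
  have hne : ∀ b, Nonempty (BlockIso D E b (σ b)) := fun b => blockIso_of_typ_eq (hσ b)
  let ψ : ∀ b, BlockIso D E b (σ b) := fun b => (hne b).some
  let φ : M ≃ N := (Equiv.sigmaFiberEquiv D.blk).symm.trans
    ((Equiv.sigmaCongr σ fun b => (ψ b).e).trans (Equiv.sigmaFiberEquiv E.blk))
  have hblk : ∀ a, E.blk (φ a) = σ (D.blk a) := fun a => ((ψ (D.blk a)).e ⟨a, rfl⟩).2
  have hap : ∀ b (y : D.fib b), φ y.1 = ((ψ b).e y).1 := by
    rintro b ⟨a, rfl⟩; rfl
  have hin : ∀ {n} (x : Fin n → M) (b), (∀ i, D.blk (x i) = b) → (h : ∀ i, D.blk (x i) = b) →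
      (fun i => φ (x i)) = fun i => ((ψ b).e ⟨x i, h i⟩).1 :=
    fun x b _ h => funext fun i => hap b ⟨x i, h i⟩
  refine ⟨⟨φ, fun {n} f x => ?_, fun {n} R x => ?_⟩, hblk⟩
  · have hxb : ∀ i, D.blk (x i) = D.blk (funMap f x) := fun i => (D.func f x i).symm
    have := ((ψ _).func f (fun i => ⟨x i, hxb i⟩) ⟨funMap f x, rfl⟩).1 rfl
    rw [← hin x _ hxb hxb] at this
    exact (hap _ ⟨funMap f x, rfl⟩).trans this.symm
  · change RelMap R (fun i => φ (x i)) ↔ RelMap R x
    cases n with
    | zero =>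
      obtain ⟨a⟩ := ‹Nonempty M›
      have hxb : ∀ i, D.blk (x i) = D.blk a := fun i => i.elim0
      rw [hin x _ hxb hxb]
      exact ((ψ _).rel R fun i => ⟨x i, hxb i⟩).symm
    | succ n =>
      constructor
      · intro h
        have hxb : ∀ i, D.blk (x i) = D.blk (x 0) := fun i => σ.injective (by
          rw [← hblk, ← hblk]; exact E.rel R _ h i 0)
        rw [hin x _ hxb hxb] at h
        exact ((ψ _).rel R fun i => ⟨x i, hxb i⟩).2 h
      · intro h
        have hxb : ∀ i, D.blk (x i) = D.blk (x 0) := fun i => D.rel R x h i 0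
        rw [hin x _ hxb hxb]
        exact ((ψ _).rel R fun i => ⟨x i, hxb i⟩).1 h

theorem iso_of_prof_eq [Nonempty M] {D : Decomp lam M} {E : Decomp lam N}
    (h : ∀ t, prof D t = prof E t) : Nonempty (M ≃[L] N) := by
  let e : ∀ t, {b : D.B // typ D b = t} ≃ {b : E.B // typ E b = t} := fun t =>
    Classical.choice (Cardinal.eq.1 (h t))
  obtain ⟨φ, -⟩ := exists_iso (Equiv.ofFiberEquiv e) fun b => (Equiv.ofFiberEquiv_map e b).symm
  exact ⟨φ⟩

theorem prof_eq_of_iso {D : Decomp lam M} {E : Decomp lam N} (hD : D.Conn) (hE : E.Conn)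
    (φ : M ≃[L] N) (t : Set (Code L lam)) : prof D t = prof E t := by
  have adj : ∀ {M N : Str L} (φ : M ≃[L] N) {a b : M}, Adj M a b → Adj N (φ a) (φ b) := by
    intro M N φ a b h
    rcases h with ⟨n, R, x, hx, ⟨i, rfl⟩, ⟨j, rfl⟩⟩ | ⟨n, f, x, ha, hb⟩
    · exact Or.inl ⟨n, R, φ ∘ x, (φ.map_rel R x).2 hx, ⟨i, rfl⟩, ⟨j, rfl⟩⟩
    · refine Or.inr ⟨n, f, φ ∘ x, ?_, ?_⟩
      · exact ha.imp (fun h => by rw [← φ.map_fun, h]) (fun ⟨i, hi⟩ => ⟨i, by simp [hi]⟩)
      · exact hb.imp (fun h => by rw [← φ.map_fun, h]) (fun ⟨i, hi⟩ => ⟨i, by simp [hi]⟩)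
  have gen : ∀ {M N : Str L} (φ : M ≃[L] N) {a b : M}, Relation.EqvGen (Adj M) a b →
      Relation.EqvGen (Adj N) (φ a) (φ b) := by
    intro M N φ a b h
    induction h with
    | rel a b hab => exact .rel _ _ (adj φ hab)
    | refl a => exact .refl _
    | symm a b _ ih => exact .symm _ _ ih
    | trans a b c _ _ ih ih' => exact .trans _ _ _ ih ih'
  have iff : ∀ a a', D.blk a = D.blk a' ↔ E.blk (φ a) = E.blk (φ a') := fun a a' =>
    ⟨fun h => E.blk_eq_of_eqvGen (gen φ (hD _ _ h)),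
      fun h => by simpa using D.blk_eq_of_eqvGen (gen φ.symm (hE _ _ h))⟩
  choose sD hsD using D.surj
  choose sE hsE using E.surj
  let σ : D.B ≃ E.B :=
    { toFun := fun b => E.blk (φ (sD b))
      invFun := fun c => D.blk (φ.symm (sE c))
      left_inv := fun b => by
        refine Eq.trans ((iff _ (sD b)).2 ?_) (hsD b)
        rw [φ.apply_symm_apply, hsE]
      right_inv := fun c => by
        refine Eq.trans ((iff _ (φ.symm (sE c))).1 (hsD _)) ?_
        rw [φ.apply_symm_apply, hsE] }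
  have hfib : ∀ b a, D.blk a = b ↔ E.blk (φ a) = σ b := by
    intro b a
    have := iff a (sD b)
    rwa [hsD] at this
  have htyp : ∀ b, typ D b = typ E (σ b) := fun b => BlockIso.typ_eq
    { e := φ.toEquiv.subtypeEquiv (hfib b)
      rel := fun R x => (φ.map_rel R fun i => (x i).1).symm
      func := fun f x y => by
        show _ ↔ funMap f (φ ∘ fun i => (x i).1) = φ y.1
        rw [← φ.map_fun, φ.injective.eq_iff] }
  exact mk_congr (σ.subtypeEquiv fun b => by rw [htyp])

end Vale.Agent.P307
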