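import Mathlib.ModelTheory.Substructures
import Mathlib.SetTheory.Cardinal.Arithmetic
import Mathlib.Order.WellFounded

/-!
Abstract elementary classes over a fixed vocabulary, in the set form: `le N S` says that the
substructure `S` of `N`, with its induced structure, is a `≤_K`-substructure of `N`.
-/

universe u

namespace Vale.Agent.P307

open FirstOrder Cardinal

variable {L : Language.{u, u}}

/-- A structure in the vocabulary `L`. -/
structure Str (L : Language.{u, u}) where
  carrier : Type u
  [struc : L.Structure carrier]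

instance : CoeSort (Str L) (Type u) := ⟨Str.carrier⟩

instance (M : Str L) : L.Structure M := M.struc

/-- A substructure, seen as a structure of its own. -/
abbrev Str.sub {M : Str L} (S : L.Substructure M) : Str L := ⟨S⟩

/-- `S` and `T` are substructures of a common structure, `S ≤ T`, and `S ≤_K T`. -/
def LeIn (le : ∀ N : Str L, L.Substructure N → Prop) {N : Str L}
    (S T : L.Substructure N) : Prop :=
  S ≤ T ∧ le (Str.sub T) (S.comap T.subtype.toHom)

/-- `ell` works as a Löwenheim-Skolem number. -/
def LSProp (mem : Str L → Prop) (le : ∀ N : Str L, L.Substructure N → Prop)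
    (ell : Cardinal.{u}) : Prop :=
  ℵ₀ ≤ ell ∧ L.card ≤ ell ∧ ∀ M : Str L, mem M → ∀ A : Set M,
    ∃ S : L.Substructure M, le M S ∧ A ⊆ (S : Set M) ∧ #S ≤ #A + ell

/-- An abstract elementary class. -/
structure AEC (L : Language.{u, u}) where
  mem : Str L → Prop
  le : ∀ N : Str L, L.Substructure N → Prop
  mem_iso : ∀ M N : Str L, (M ≃[L] N) → mem M → mem N
  le_iso : ∀ (M N : Str L) (φ : M ≃[L] N) (S : L.Substructure M),
    le M S → le N (S.map φ.toHom)
  le_mem : ∀ (N : Str L) (S : L.Substructure N), le N S → mem (Str.sub S) ∧ mem N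
  le_refl' : ∀ N : Str L, mem N → le N ⊤
  le_trans' : ∀ (N : Str L) (S T U : L.Substructure N),
    LeIn le S T → LeIn le T U → LeIn le S U
  coherence : ∀ (N : Str L) (S T U : L.Substructure N),
    S ≤ T → LeIn le S U → LeIn le T U → LeIn le S T
  chain : ∀ (N : Str L) (ι : Type u) [LinearOrder ι] [WellFoundedLT ι] [Nonempty ι]
    (S : ι → L.Substructure N), (∀ i j, i ≤ j → LeIn le (S i) (S j)) →
    mem (Str.sub (⨆ i, S i)) ∧ (∀ i, LeIn le (S i) (⨆ i, S i)) ∧
      ∀ T : L.Substructure N, (∀ i, LeIn le (S i) T) → LeIn le (⨆ i, S i) T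
  exists_ls : ∃ ell, LSProp mem le ell

/-- `LS(K) ≤ lam`. -/
def AEC.LSLe (K : AEC L) (lam : Cardinal.{u}) : Prop :=
  ∃ ell ≤ lam, LSProp K.mem K.le ell

/-- `K` has a model of size `κ` and all its models of size `κ` are isomorphic. -/
def AEC.Categorical (K : AEC L) (κ : Cardinal.{u}) : Prop :=
  (∃ M : Str L, K.mem M ∧ #M = κ) ∧
    ∀ M N : Str L, K.mem M → K.mem N → #M = κ → #N = κ → Nonempty (M ≃[L] N)

/-- `a` and `b` occur together in a tuple of some relation or of the graph of some function. -/
def Adj (M : Str L) (a b : M) : Prop :=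
  (∃ (n : ℕ) (R : L.Relations n) (x : Fin n → M),
      Language.Structure.RelMap R x ∧ (∃ i, x i = a) ∧ ∃ j, x j = b) ∨
  ∃ (n : ℕ) (f : L.Functions n) (x : Fin n → M),
      (Language.Structure.funMap f x = a ∨ ∃ i, x i = a) ∧
      (Language.Structure.funMap f x = b ∨ ∃ j, x j = b)

/-- Every connected component of the Gaifman graph of `M` has at most `lam` elements. -/
def SmallComponents (lam : Cardinal.{u}) (M : Str L) : Prop :=
  ∀ a : M, #{b : M // Relation.EqvGen (Adj M) a b} ≤ lam

end Vale.Agent.P307
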