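import Vale.Agent.P307.Decomp

/-!
Substructures made of whole blocks, and structures obtained by changing multiplicities of blocks.
-/

universe u

namespace Vale.Agent.P307

open FirstOrder Cardinal Language.Structure

variable {L : Language.{u, u}} {lam : Cardinal.{u}} {M N : Str L}

/-- `P` contains all blocks of constants. -/
def Decomp.Closed (D : Decomp lam M) (P : Set D.B) : Prop :=
  ∀ (f : L.Functions 0) (x : Fin 0 → M), D.blk (funMap f x) ∈ P

/-- The substructure made of the blocks in `P`. -/
def Decomp.part (D : Decomp lam M) (P : Set D.B) (hP : D.Closed P) : L.Substructure M where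
  carrier := D.blk ⁻¹' P
  fun_mem {n} f x hx := by
    cases n with
    | zero => exact hP f x
    | succ n =>
      show D.blk (funMap f x) ∈ P
      rw [D.func f x 0]
      exact hx 0

@[simp]
theorem Decomp.mem_part {D : Decomp lam M} {P : Set D.B} {hP : D.Closed P} {a : M} :
    a ∈ D.part P hP ↔ D.blk a ∈ P := Iff.rfl

/-- The decomposition of a part. -/
def Decomp.restrict (D : Decomp lam M) (P : Set D.B) (hP : D.Closed P) :
    Decomp lam (Str.sub (D.part P hP)) where
  B := P
  blk a := ⟨D.blk a.1, a.2⟩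
  surj b := by
    obtain ⟨a, ha⟩ := D.surj b.1
    exact ⟨⟨a, show D.blk a ∈ P from ha ▸ b.2⟩, Subtype.ext ha⟩
  small b := by
    refine le_trans ?_ (D.small b.1)
    refine mk_le_of_injective (f := fun a => ⟨a.1.1, congrArg Subtype.val a.2⟩) ?_
    intro a a' h
    refine Subtype.ext ?_
    exact Subtype.ext (congrArg (fun z => z.1) h :)
  rel R x hx i j := Subtype.ext (D.rel R _ hx i j)
  func f x i := Subtype.ext (D.func f (fun i => (x i).1) i)

theorem Decomp.typ_restrict (D : Decomp lam M) (P : Set D.B) (hP : D.Closed P) (b : P) :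
    typ (D.restrict P hP) b = typ D b.1 :=
  BlockIso.typ_eq
    { e :=
        { toFun := fun a => ⟨a.1.1, congrArg Subtype.val a.2⟩
          invFun := fun a => ⟨⟨a.1, (congrArg (· ∈ P) a.2).mpr b.2⟩, Subtype.ext a.2⟩
          left_inv := fun _ => rfl
          right_inv := fun _ => rfl }
      rel := fun _ _ => Iff.rfl
      func := fun _ _ _ => ⟨fun h => congrArg Subtype.val h, fun h => Subtype.ext h⟩ }

/-- Every type in `β` occurs at least `μ` times. -/
def Decomp.Full (D : Decomp lam M) (β : Set (Set (Code L lam))) (μ : Cardinal.{u}) : Prop :=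
  ∀ t ∈ β, μ ≤ prof D t

theorem Decomp.Full.const_notMem {D : Decomp lam M} {β : Set (Set (Code L lam))}
    {μ : Cardinal.{u}} (h : D.Full β μ) (hμ : ℵ₀ ≤ μ) (f : L.Functions 0) (x : Fin 0 → M) :
    typ D (D.blk (funMap f x)) ∉ β := by
  intro ht
  have h1 : (1 : Cardinal) < prof D (typ D (D.blk (funMap f x))) :=
    one_lt_aleph0.trans_le (hμ.trans (h _ ht))
  rw [prof, Cardinal.one_lt_iff_nontrivial] at h1
  obtain ⟨⟨b, hb⟩, hne⟩ := exists_ne (⟨D.blk (funMap f x), rfl⟩ :
    {b : D.B // typ D b = typ D (D.blk (funMap f x))})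
  obtain ⟨I⟩ := blockIso_of_typ_eq hb.symm
  have h2 := (I.func f Fin.elim0 ⟨funMap f x, rfl⟩).1 (by congr 1; ext i; exact i.elim0)
  refine hne (Subtype.ext ?_)
  show b = _
  rw [← (I.e ⟨funMap f x, rfl⟩).2, ← h2]
  congr 2; ext i; exact i.elim0

/-- `P` has all rare blocks and exactly `μ` blocks of each common type. -/
def Decomp.Good (D : Decomp lam M) (β : Set (Set (Code L lam))) (μ : Cardinal.{u})
    (P : Set D.B) : Prop :=
  (∀ b, typ D b ∉ β → b ∈ P) ∧ ∀ t ∈ β, #{b : D.B // b ∈ P ∧ typ D b = t} = μ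

theorem Decomp.Good.closed {D : Decomp lam M} {β : Set (Set (Code L lam))} {μ : Cardinal.{u}}
    {P : Set D.B} (h : D.Good β μ P) (hμ : ℵ₀ ≤ μ) (hfull : D.Full β μ) : D.Closed P :=
  fun f x => h.1 _ (hfull.const_notMem hμ f x)

/-- If the types match on two parts then they are isomorphic. -/
theorem part_iso {D : Decomp lam M} {E : Decomp lam N} {P : Set D.B} {Q : Set E.B}
    (hP : D.Closed P) (hQ : E.Closed Q) (hne : P.Nonempty) (σ : P ≃ Q)
    (hσ : ∀ b, typ D b.1 = typ E (σ b).1) :
    ∃ φ : D.part P hP ≃[L] E.part Q hQ, ∀ a, E.blk (φ a).1 = (σ ⟨D.blk a.1, a.2⟩).1 := by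
  obtain ⟨b, hb⟩ := hne
  obtain ⟨a, ha⟩ := D.surj b
  haveI : Nonempty (Str.sub (D.part P hP)) := ⟨⟨a, show D.blk a ∈ P from ha ▸ hb⟩⟩
  obtain ⟨φ, hφ⟩ := exists_iso (D := D.restrict P hP) (E := E.restrict Q hQ) σ fun b =>
    (D.typ_restrict P hP b).trans ((hσ b).trans (E.typ_restrict Q hQ (σ b)).symm)
  exact ⟨φ, fun a => congrArg Subtype.val (hφ a)⟩

/-- No function symbol of arity at least two. -/
def Unary (L : Language.{u, u}) : Prop := ∀ n, IsEmpty (L.Functions (n + 2))

theorem unary_of_lt (D : Decomp lam M) (h : lam < #M) : Unary L := by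
  refine fun n => ⟨fun f => h.not_ge ?_⟩
  obtain ⟨a⟩ : Nonempty M := mk_ne_zero_iff.1 (ne_bot_of_gt h)
  have hall : ∀ b, D.blk b = D.blk a := fun b => by
    have h0 := D.func f (Fin.cons b (fun _ => a)) 0
    have h1 := D.func f (Fin.cons b (fun _ => a)) 1
    simp only [Fin.cons_zero] at h0
    exact h0.symm.trans (h1.trans rfl)
  exact (mk_le_of_injective (f := fun b => (⟨b, hall b⟩ : D.fib (D.blk a)))
    fun b b' h => congrArg Subtype.val h).trans (D.small _)

section Blow

variable (D : Decomp lam M) (J : D.B → Type u)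

/-- The carrier of the structure with `J b` copies of each block `b`. -/
abbrev BlowCarrier : Type u := {q : (Σ b, J b) × M // D.blk q.2 = q.1.1}

variable {D J} (c : ∀ (f : L.Functions 0) (x : Fin 0 → M), J (D.blk (funMap f x)))

/-- The structure with `J b` copies of each block `b`. -/
def blow : Str L where
  carrier := BlowCarrier D J
  struc :=
    { funMap := fun {n} => match n with
        | 0 => fun f _ => ⟨(⟨D.blk (funMap f Fin.elim0), c f Fin.elim0⟩,
            funMap f Fin.elim0), rfl⟩
        | _ + 1 => fun f x => ⟨((x 0).1.1, funMap f fun i => (x i).1.2),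
            (D.func f (fun i => (x i).1.2) 0).trans (x 0).2⟩
      RelMap := fun R x => RelMap R (fun i => (x i).1.2) ∧ ∀ i j, (x i).1.1 = (x j).1.1 }

/-- The decomposition of `blow`. -/
def blowDecomp (hu : Unary L) : Decomp lam (blow c) where
  B := Σ b, J b
  blk a := a.1.1
  surj := fun ⟨b, j⟩ => by
    obtain ⟨a, ha⟩ := D.surj b
    exact ⟨⟨(⟨b, j⟩, a), ha⟩, rfl⟩
  small := fun p => by
    refine le_trans ?_ (D.small p.1)
    refine mk_le_of_injective (f := fun a => ⟨a.1.1.2, a.1.2.trans (congrArg Sigma.fst a.2)⟩) ?_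
    intro a a' h
    exact Subtype.ext (Subtype.ext (Prod.ext (a.2.trans a'.2.symm) (congrArg Subtype.val h)))
  rel R x hx := hx.2
  func {n} f x i := by
    match n with
    | 0 => exact i.elim0
    | 1 => exact congrArg (fun i => (x i).1.1) (Subsingleton.elim 0 i)
    | n + 2 => exact (hu n).elim f

theorem typ_blow (hu : Unary L) (hc : ∀ (f : L.Functions 0) (x : Fin 0 → M),
    Subsingleton (J (D.blk (funMap f x)))) (p : Σ b, J b) :
    typ (blowDecomp c hu) p = typ D p.1 :=
  (BlockIso.typ_eq (D := D) (E := blowDecomp c hu) (b := p.1) (c := p)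
    { e :=
        { toFun := fun a => ⟨⟨(p, a.1), a.2⟩, rfl⟩
          invFun := fun a => ⟨a.1.1.2, a.1.2.trans (congrArg Sigma.fst a.2)⟩
          left_inv := fun _ => rfl
          right_inv := fun a => Subtype.ext (Subtype.ext (Prod.ext a.2.symm rfl)) }
      rel := fun R x => ⟨fun h => ⟨h, fun _ _ => rfl⟩, fun h => h.1⟩
      func := fun {n} f x y => by
        match n with
        | 0 =>
          have hx : (fun i => (x i).1) = Fin.elim0 := funext fun i => i.elim0
          rw [hx]
          constructor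
          · intro h
            refine Subtype.ext (Prod.ext ?_ h)
            have hb : D.blk (funMap f Fin.elim0) = p.1 := by rw [h]; exact y.2
            obtain ⟨b, j⟩ := p
            cases hb
            exact congrArg (Sigma.mk _) ((hc f Fin.elim0).elim _ _)
          · intro h
            exact congrArg (fun q => q.1.2) h
        | _ + 1 =>
          exact ⟨fun h => Subtype.ext (Prod.ext rfl h), fun h => congrArg (fun q => q.1.2) h⟩ }).symm

theorem blow_conn (hu : Unary L) (hc : ∀ (f : L.Functions 0) (x : Fin 0 → M),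
    Subsingleton (J (D.blk (funMap f x)))) (hD : D.Conn) : (blowDecomp c hu).Conn := by
  intro a a' h
  obtain ⟨I⟩ := blockIso_of_typ_eq (typ_blow c hu hc ((blowDecomp c hu).blk a')).symm
  exact I.eqvGen hD ⟨a, h⟩ ⟨a', rfl⟩

end Blow

end Vale.Agent.P307
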