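import Vale.Agent.P307.Defs

/-! A check that the hypotheses are not vacuous: infinite pure sets. -/



namespace Vale.Agent.P307

open FirstOrder Cardinal

/-- The class of all infinite sets with inclusion. -/
def pureSets : AEC (Language.empty : Language.{0, 0}) where
  mem M := ℵ₀ ≤ #M
  le N S := ℵ₀ ≤ #S
  mem_iso _ _ φ h := h.trans (mk_congr φ.toEquiv).le
  le_iso _ _ φ S h := h.trans (mk_le_of_injective
    (f := fun x => (⟨φ x.1, ⟨x.1, x.2, rfl⟩⟩ : S.map φ.toHom))
    fun _ _ h => Subtype.ext (φ.injective (congrArg Subtype.val h :)))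
  le_mem _ _ h := ⟨h, h.trans (mk_subtype_le _)⟩
  le_refl' N h := h.trans (mk_congr Language.Substructure.topEquiv.toEquiv).ge
  le_trans' N S T U h₁ h₂ := ⟨h₁.1.trans h₂.1, h₁.2.trans (mk_le_of_injective
    (f := fun x => (⟨⟨x.1.1, h₂.1 x.1.2⟩, x.2⟩ : S.comap U.subtype.toHom))
    fun _ _ h => Subtype.ext (Subtype.ext (congrArg (fun z => z.1.1) h :)))⟩
  coherence N S T U h h₁ _ := ⟨h, h₁.2.trans (mk_le_of_injective
    (f := fun x => (⟨⟨x.1.1, h x.2⟩, x.2⟩ : S.comap T.subtype.toHom))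
    fun _ _ h => Subtype.ext (Subtype.ext (congrArg (fun z => z.1.1) h :)))⟩
  chain N ι _ _ _ S h := by
    have key : ∀ i (T : Language.Substructure Language.empty N.carrier), S i ≤ T →
        ℵ₀ ≤ #((S i).comap T.subtype.toHom) := fun i T hiT =>
      ((h i i le_rfl).2).trans (mk_le_of_injective
        (f := fun x => (⟨⟨x.1.1, hiT x.1.2⟩, x.2⟩ : (S i).comap T.subtype.toHom))
        fun _ _ h => Subtype.ext (Subtype.ext (congrArg (fun z => z.1.1) h :)))
    obtain ⟨i⟩ := ‹Nonempty ι›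
    refine ⟨(key i _ (le_iSup S i)).trans (mk_subtype_le _), fun j => ⟨le_iSup S j, key j _ (le_iSup S j)⟩,
      fun T hT => ⟨iSup_le fun j => (hT j).1, (key i T (hT i).1).trans ?_⟩⟩
    exact mk_le_of_injective (f := fun x => (⟨x.1, le_iSup S i x.2⟩ : (⨆ j, S j).comap T.subtype.toHom))
      fun _ _ h => Subtype.ext (congrArg (fun z => z.1) h :)
  exists_ls := by
    refine ⟨ℵ₀, le_rfl, by simp, fun M hM A => ?_⟩
    obtain ⟨B, hB⟩ := le_mk_iff_exists_set.1 hM
    refine ⟨⟨A ∪ B, fun {n} f => isEmptyElim f⟩, ?_, Set.subset_union_left, ?_⟩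
    · exact hB.symm.le.trans (mk_le_mk_of_subset Set.subset_union_right)
    · exact (mk_union_le A B).trans (hB ▸ le_rfl)

/-- The hypotheses and the conclusion of the theorem hold for pure sets. -/
theorem pureSets_check (κ : Cardinal.{0}) (h : ℵ₀ ≤ κ) :
    pureSets.LSLe ℵ₀ ∧ pureSets.Categorical κ ∧ ∀ M, pureSets.mem M → SmallComponents ℵ₀ M := by
  refine ⟨?_, ⟨⟨@Str.mk _ κ.out Language.emptyStructure, h.trans (mk_out κ).ge, mk_out κ⟩,
    fun M N _ _ hM hN => ?_⟩, fun M _ a => ?_⟩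
  · refine ⟨ℵ₀, le_rfl, le_rfl, by simp, fun M hM A => ?_⟩
    obtain ⟨B, hB⟩ := le_mk_iff_exists_set.1 hM
    refine ⟨⟨A ∪ B, fun {n} f => isEmptyElim f⟩, ?_, Set.subset_union_left, ?_⟩
    · exact hB.symm.le.trans (mk_le_mk_of_subset Set.subset_union_right)
    · exact (mk_union_le A B).trans (hB ▸ le_rfl)
  · obtain ⟨e⟩ := Cardinal.eq.1 (hM.trans hN.symm)
    exact ⟨⟨e, fun f => isEmptyElim f, fun r => isEmptyElim r⟩⟩
  · have key : ∀ a b : M, Relation.EqvGen (Adj M) a b → a = b := by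
      intro a b hab
      induction hab with
      | rel a b h =>
        rcases h with ⟨_, R, -, -⟩ | ⟨_, f, -, -⟩
        · exact isEmptyElim R
        · exact isEmptyElim f
      | refl => rfl
      | symm _ _ _ ih => exact ih.symm
      | trans _ _ _ _ _ i j => exact i.trans j
    have : Subsingleton {b : M // Relation.EqvGen (Adj M) a b} :=
      ⟨fun x y => Subtype.ext ((key _ _ x.2).symm.trans (key _ _ y.2))⟩
    exact (le_one_iff_subsingleton.2 this).trans one_le_aleph0

end Vale.Agent.P307
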